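import Vale.Agent.P014Z.St
import Vale.Agent.P014Z.Inr
import Vale.Agent.P014Z.Su.Mod
import Vale.Agent.P014Z.Lk.Cyc
import Vale.Agent.P004F.Qx.Dep
import Vale.Agent.P022K.G2.Tr

/-! # P014Z: the data of a level exist -/

set_option autoImplicit false
set_option linter.all false

noncomputable section

namespace Vale.Agent.P014Z.Gl

open NumberField Finset
open Vale.Agent.P022 (Qb GQ GK below)
open Vale.Agent.P022E.GW (Ov Fb)
open Vale.Agent.P022K.G2 (oz Tv)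
open Vale.Agent.P014U P004K
open P014Y.F (Crv Fld)
open P004F.Qx (Sp)
open P004F.Qx.De (sp_l sp_r cop_of sp_step)

namespace Dt

section ideals

variable {O : Type} [CommRing O] [IsDedekindDomain O] [CharZero O] {L Q : ℕ → Ideal O}

theorem sp_one : Sp 1 (1 : Ideal O) 1 :=
  ⟨⟨fun k => by simp, fun a => ⟨0, by simp⟩⟩, by simp, by simp⟩

theorem sp_pow {p : ℕ} {I J : Ideal O} (hp : 0 < p) (h : Sp p I J) (n : ℕ) :
    Sp (p ^ n) (I ^ n) (J ^ n) := by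
  have c := Ideal.isCoprime_iff_sup_eq.2 h.cop
  induction n with
  | zero => simpa using sp_one
  | succ n ih =>
    rw [pow_succ, pow_succ, pow_succ]
    exact sp_step (pow_pos hp n) ih h c.symm.pow_left c.pow_left

theorem sp_prod (s : Finset ℕ) (n : ℕ → ℕ) (h : ∀ l ∈ s, l.Prime ∧ Sp l (L l) (Q l)) :
    Sp (∏ l ∈ s, l ^ n l) (∏ l ∈ s, L l ^ n l) (∏ l ∈ s, Q l ^ n l) := by
  induction s using Finset.induction_on with
  | empty => simpa using sp_one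
  | insert p s m ih =>
    have h' := fun l k => h l (mem_insert_of_mem k)
    obtain ⟨hp, k⟩ := h p (mem_insert_self _ _)
    have co : (∏ l ∈ s, l ^ n l).Coprime (p ^ n p) := Nat.Coprime.prod_left fun l k =>
      Nat.Coprime.pow _ _ ((Nat.coprime_primes (h' l k).1 hp).2 fun e => m (e ▸ k))
    have a := ih h'
    have b := sp_pow hp.pos k (n p)
    rw [prod_insert m, prod_insert m, prod_insert m, mul_comm (p ^ _), mul_comm (L p ^ _),
      mul_comm (Q p ^ _)]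
    exact sp_step (prod_pos fun l k => pow_pos (h' l k).1.pos _) a b
      (cop_of co (sp_r a) (sp_l b)) (cop_of co (sp_l a) (sp_r b))

end ideals

variable [Pp] {e : Crv}

/-- **the ideal of level `f ^ 2`** -/
theorem sp_fi (b : Fld e) {f : ℕ} (f0 : f ≠ 0) (h : ∀ l : ℕ, l.Prime → l ∣ f → l ∈ e.S) :
    Sp (f ^ 2) (Fi b f) (∏ l ∈ f.primeFactors, b.Q l ^ (2 * f.factorization l)) := by
  have := sp_prod (L := fun l => below b.j (e.P l)) (Q := b.Q) f.primeFactors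
    (fun l => 2 * f.factorization l) fun l m => ⟨Nat.prime_of_mem_primeFactors m,
      b.ch.spl l (h l (Nat.prime_of_mem_primeFactors m) (Nat.dvd_of_mem_primeFactors m))⟩
  have k : f ^ 2 = ∏ l ∈ f.primeFactors, l ^ (2 * f.factorization l) := by
    conv_lhs => rw [← Nat.factorization_prod_pow_eq_self f0, Finsupp.prod, ← prod_pow]
    exact prod_congr rfl fun l _ => by rw [← pow_mul, mul_comm]
  rw [k]
  exact this

variable {b : Fld e} {η : Ch} {n c : ℕ} {χ : GQ → ZMod (pp ^ (n + 1))} {γ : GQ}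

theorem cop (z : Lz b η n c χ γ) {f : ℕ} (h : ∀ l : ℕ, l.Prime → l ∣ f → l ∈ e.S) :
    c.Coprime f := Nat.coprime_of_dvd fun l p a k =>
  (z.ly.out l p a).1 (List.mem_toFinset.2 (h l p k))

theorem ndv (z : Lz b η n c χ γ) : ¬ pp ∣ c := fun a =>
  (z.ly.out pp pp_prime a).1 (List.mem_toFinset.2 e.pm)

theorem ex_ug (z : Lz b η n c χ γ) : ∃ U, Ug b η χ U := by
  have o : χ 1 = 0 := by simpa using z.add 1 (one_mem _) 1 (one_mem _)
  refine ⟨⟨⟨⟨{g | g ∈ b.Γ ∧ η g = 1 ∧ χ g = 0}, fun {g h} x y => ⟨mul_mem x.1 y.1, ?_, ?_⟩⟩,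
    one_mem _, map_one η, o⟩, fun {g} x => ⟨inv_mem x.1, ?_, ?_⟩⟩, fun _ => Iff.rfl⟩
  · rw [map_mul, x.2.1, y.2.1, one_mul]
  · rw [z.add g x.1 h y.1, x.2.2, y.2.2, add_zero]
  · simpa [x.2.1] using (map_mul η g g⁻¹).symm
  · simpa [o, x.2.2] using (z.add g x.1 _ (inv_mem x.1)).symm

theorem ex_sm (D : Da e) (c0 : c ≠ 0) (co : c.Coprime D.f) (nd : ¬ pp ∣ c) :
    ∃ c₀ m, Sm D.f D.ψ c c₀ m := by
  have five := D.five
  obtain ⟨ε, f, nf, ef⟩ := Nat.exists_eq_pow_mul_and_not_dvd (NeZero.ne D.f) pp one_lt.ne'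
  have f0 : f ≠ 0 := fun k => nf (k ▸ dvd_zero _)
  have cf : pp.Coprime f := (Nat.Prime.coprime_iff_not_dvd pp_prime).2 nf
  have cc : pp.Coprime (f * c) :=
    cf.mul_right ((Nat.Prime.coprime_iff_not_dvd pp_prime).2 nd)
  have cu : ∀ {t r M : ℕ}, t ≡ r [MOD pp] → ¬ pp ∣ r → t ≡ 1 [MOD f * M] → t.Coprime D.f :=
    fun {t r M} a k a' => by
      rw [ef]
      refine Nat.Coprime.mul_right (Nat.Coprime.pow_right _ (Nat.Coprime.symm
        ((Nat.Prime.coprime_iff_not_dvd pp_prime).2 fun d => k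
          ((Nat.modEq_zero_iff_dvd).1 (a.symm.trans ((Nat.modEq_zero_iff_dvd).2 d)))))) ?_
      exact (Nat.ModEq.gcd_eq (a'.of_mul_right M)).trans (Nat.gcd_one_left _)
  obtain ⟨c₀, h1, h2⟩ := Nat.chineseRemainder cc (pp - 1) 1
  obtain ⟨t, t1, t2⟩ := Nat.chineseRemainder cc 2 1
  have e1 : (c₀ : ZMod pp) = -1 := by
    rw [(ZMod.natCast_eq_natCast_iff _ _ _).2 h1, Nat.cast_sub pp_pos]
    simp
  have e2 : (t : ZMod pp) = 2 := by
    rw [(ZMod.natCast_eq_natCast_iff _ _ _).2 t1, Nat.cast_ofNat]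
  have t0 : 0 < t := Nat.pos_of_ne_zero fun k => two_ne (by rw [← e2, k, Nat.cast_zero])
  have c1 := cu h1 (Nat.not_dvd_of_pos_of_lt (by omega) (by omega)) h2
  refine ⟨c₀, f * c * (t ^ 2 - 1), c1, ?_, fun k => two_ne ?_, h2.of_mul_left f, ?_,
    (dvd_mul_left c f).mul_right _, fun f' d k => ?_, fun d => ?_⟩
  · obtain ⟨g, i, hg⟩ := Inr.oz_in (e.ov pp e.pm) (u := -1) (neg_ne_zero.2 one_ne_zero)
    rw [← D.dc.eq g c₀ fun ζ hζ => ?_, D.ec.ine _ g (e.ov pp e.pm) i, hg, D.ec.ev.neg_one_pow]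
    have l : ε ≤ 1 := by
      by_contra! k
      exact D.dc.sq (ef ▸ (pow_dvd_pow pp k).mul_right f)
    have z : ζ ^ (pp * f) = 1 := by
      obtain ⟨r, hr⟩ : D.f ∣ pp * f := ef ▸ Nat.mul_dvd_mul_right
        ((pow_dvd_pow pp l).trans (pow_one pp).dvd) f
      rw [hr, pow_mul, hζ, one_pow]
    obtain ⟨u, u1, u2⟩ := Nat.chineseRemainder cf 1 0
    obtain ⟨v, v1, v2⟩ := Nat.chineseRemainder cf 0 1
    have s : ζ = ζ ^ u * ζ ^ v := by
      have k : u + v ≡ 1 [MOD pp * f] := (Nat.modEq_and_modEq_iff_modEq_mul cf).1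
        ⟨by simpa using u1.add v1, by simpa using u2.add v2⟩
      rw [← pow_add, pow_eq_pow_mod _ z, k, ← pow_eq_pow_mod _ z, pow_one]
    have a1 : (ζ ^ u) ^ pp = 1 := by
      obtain ⟨r, hr⟩ := Nat.modEq_zero_iff_dvd.1 u2
      rw [← pow_mul, hr, show f * r * pp = pp * f * r by ring, pow_mul, z, one_pow]
    have a2 : (ζ ^ v) ^ f = 1 := by
      obtain ⟨r, hr⟩ := Nat.modEq_zero_iff_dvd.1 v1
      rw [← pow_mul, hr, show pp * r * f = pp * f * r by ring, pow_mul, z, one_pow]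
    have b1 : g (ζ ^ u) = (ζ ^ u) ^ c₀ := by
      obtain ⟨a, ha⟩ := P022K.G2.pw_ex a1
      rw [ha, P022K.G2.oz_pw, hg, ← e1, mul_comm, P022K.G2.pw_mul, ZMod.val_natCast,
        ← pow_eq_pow_mod _ (P022K.G2.pw_pow a)]
    have b2 : g (ζ ^ v) = (ζ ^ v) ^ c₀ := by
      rw [P014T.Dr.inert_Hm (e.ov pp e.pm) nf i _ a2, pow_eq_pow_mod c₀ a2, h2.of_mul_right c,
        ← pow_eq_pow_mod _ a2, pow_one]
    rw [s, map_mul, b1, b2, mul_pow]
  · rw [e1] at k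
    linear_combination -k
  · rw [mul_assoc]
    exact (Su.sq_dvd (cu t1 not_dvd_two t2) t0).mul_left _
  · refine ((Nat.Coprime.dvd_of_dvd_mul_left ?_ (ef ▸ d)).mul_right c).mul_right _
    exact Nat.Coprime.pow_right _ ((Nat.Prime.coprime_iff_not_dvd pp_prime).2 k).symm
  · rcases (Nat.Prime.dvd_mul pp_prime).1 d with d | d
    · exact (Nat.Prime.coprime_iff_not_dvd pp_prime).1 cc d
    · have k := (ZMod.natCast_eq_zero_iff _ _).2 d
      rw [Nat.cast_sub (Nat.one_le_pow _ _ t0), Nat.cast_pow, e2] at k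
      have : pp ∣ 3 := (ZMod.natCast_eq_zero_iff 3 pp).1 (by push_cast at k ⊢; linear_combination k)
      exact absurd (Nat.le_of_dvd three_pos this) (by omega)

theorem ex_us (hg : HG1) (b : Fld e) {f c₀ m : ℕ} [NeZero f] (f1 : 1 < f) (c0 : 0 < c)
    (co : c.Coprime f) (h : ∀ l : ℕ, l.Prime → l ∣ f → l ∈ e.S) (hm : f ∣ m * Su.sq f) :
    ∃ s, Us b f c c₀ m s := by
  have M0 : 0 < f ^ 2 := by positivity
  have fam : Lk.Cy.Fam f (f ^ 2) (Su.us f c₀ m) := fun σ k τ τ' a y t =>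
    Su.us_gal f1 hm c₀ t M0 dvd_rfl a y
  obtain ⟨⟨τ₀, h0⟩, uq, -, fx, -⟩ := hg b.K b.j b.iq _ c _ M0 c0 (co.pow_right 2)
    (sp_fi b (NeZero.ne f) h).cn
  obtain ⟨s, hs⟩ : ∃ x, P027M.M.io x = Su.us f c₀ m 1 τ₀ := Lk.Cy.alg_fix fun σ e => by
    simpa using fam σ _ τ₀ τ₀ ((fx τ₀ σ 1 (one_mem _) h0 e).1 (one_mem _)) (Lk.Cy.cy_cy e) 1
  exact ⟨s, fun g _ σ τ τ' t e p q y => by
    rw [← e, hs, ← fam.inv M0 ((uq τ₀ τ h0).1 p), fam σ t τ τ' q y, mul_one]⟩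

theorem ex_tv (Γ : Subgroup GQ) {U : Subgroup GQ} (o : IsOpen (U : Set GQ)) : ∃ R, Tv Γ U R := by
  have := P022K.G2.cpt
  have := Subgroup.quotient_finite_of_isOpen _ o
  have : U.FiniteIndex := Subgroup.finiteIndex_of_finite_quotient
  exact P022K.G2.ex_tv (Subgroup.FiniteIndex.index_ne_zero (H := U.subgroupOf Γ))

theorem mem_hf (b : Fld e) {f : ℕ} {g : GQ} :
    g ∈ Hf b c f ↔ g ∈ Hc b.j c ∧ g ∈ P014T.Dr.Hm f := by
  simp only [Hf, Subgroup.mem_inf, Subgroup.mem_iInf]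
  rfl

theorem hf_open (r1 : RC1) (b : Fld e) (c0 : 0 < c) {f : ℕ} (f0 : f ≠ 0) :
    IsOpen (Hf b c f : Set GQ) := by
  convert (r1 _ b.j b.iq c c0).2.1.inter (P014T.Dr.Hm_open f0) using 1
  exact Set.ext fun g => mem_hf b

end Dt

open Dt in
/-- **the data exist** -/
theorem dat [Pp] (r1 : RC1) (hg : HG1) : DAT := fun e D b n c χ γ z => by
  have c0 : 0 < c := zero_lt_one.trans z.one
  have co := cop z D.dc.sup
  obtain ⟨U, hU⟩ := ex_ug z
  obtain ⟨c₀, m, sm⟩ := ex_sm D c0.ne' co (ndv z)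
  obtain ⟨s, us⟩ := ex_us (c₀ := c₀) hg b D.dc.one c0 co D.dc.sup sm.dv
  obtain ⟨R, hR⟩ := ex_tv b.Γ (r1 _ b.j b.iq c c0).2.1
  obtain ⟨R', hR'⟩ := ex_tv b.Γ (hf_open r1 b c0 (NeZero.ne D.f))
  exact ⟨⟨c, χ, γ, U, c₀, m, s, R, R', z, hU, sm, us, hR, hR'⟩, rfl, rfl, rfl⟩

end Vale.Agent.P014Z.Gl
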