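import Vale.Agent.P014Z.Gl.All0
import Vale.Agent.P014Z.Ac.All
import Vale.Agent.P014Z.In.All
import Vale.Agent.P014Z.Lk.All
import Vale.Agent.P014Z.Ra.All
import Vale.Agent.P014Z.Tk.Top
import Vale.Agent.P014Z.Tz.Dis
import Vale.Agent.P014Z.Tz.Frm
import Vale.Agent.P014Z.Tz.Geo
import Vale.Agent.P014Z.Tz.Grp
import Vale.Agent.P014Z.Tz.Loc
import Vale.Agent.P014Z.Tz.Par
import Vale.Agent.P014Z.Tz.Spl
import Vale.Agent.P014Z.Tz.Yd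

/-! # P014Z: the anchor, closed -/

set_option autoImplicit false

namespace Vale.Agent.P014Z.Gl

open P004K (x_rc1 x_rc2 y_hg1 cj0 jh)

theorem cr_all : Tz.CR0 :=
  Tz.cr0 y_hg1 cj0 (Tz.par x_rc1 x_rc2) (Tz.geo P004K.Rc.iq jh x_rc1) (Tz.yd Tz.dis) Tz.spl Tz.grp
    Tz.loc

variable [P014U.Pp]

theorem fr_all : Tk.FR := fun _ _ _ _ L => ⟨Tz.Fr.ram x_rc2 L.lz, Tz.Fr.prm x_rc2 L.lz⟩

/-- **the trivial zeros** -/
theorem tzk_all : TZK := Tk.tzk cr_all fr_all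

/-- **the anchor** -/
theorem anz_all : ANZ :=
  anz1 tow_all dat_all Ac.acx_all (inw In.inj_all) (br1 Lk.x_brv) tzk_all Lk.x_lnk Ra.rax

end Vale.Agent.P014Z.Gl
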