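import Vale.Agent.P014Z.St
import Vale.Agent.P014Z.Rk.St
import Vale.Agent.P014Z.Inr
import Vale.Agent.P014Z.Lk.Cyc
import Vale.Agent.P014Y.Rk.Rae

/-! # P014Z: row TOW (helper51) -/

set_option autoImplicit false
set_option linter.all false

noncomputable section

namespace Vale.Agent.P014Z.Gl

open NumberField Matrix
open scoped Classical
open Vale.Agent.P022 (Qb GQ)
open Vale.Agent.P027M.S (Inert)
open Vale.Agent.P022D.W (dec dec_gen)
open Vale.Agent.P022E.GW (Ov Fb)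
open Vale.Agent.P022K.G2 (oz)
open Vale.Agent.P014U
open P004K (Hc)
open P014Y.F (Crv Fld)
open P014Y.Mu (F Rs Nf RSE rb)
open P014Y.Bo (dg dg_mv)
open P014Y.Rk (dg_dg dg_det dg_on1 Ra)
open Ml (Tri)

variable [Pp] {e : Crv}

namespace Tw

theorem tri {a : GQ →* L2.M2} {α δ : GQ → F} (t : Tri ⊤ a α δ) (g : GQ) :
    (a g = 1 → α g = 1 ∧ δ g = 1) ∧ (a g).det = α g * δ g := by
  obtain ⟨C, C', k, h⟩ := t
  obtain ⟨h0, h1, h2⟩ := h g trivial
  have k' := mul_eq_one_comm.1 k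
  refine ⟨fun z => ?_, ?_⟩
  · rw [z, mul_one, k'] at h1 h2
    exact ⟨h1.symm, h2.symm⟩
  · have := det_fin_two (C' * a g * C)
    rwa [h0, h1, h2, zero_mul, sub_zero, det_mul, det_mul, mul_right_comm, ← det_mul, k', det_one,
      one_mul] at this

theorem fer (θ : Ch) (g : GQ) : θ g ^ (pp - 1) = 1 := ZMod.pow_card_sub_one_eq_one (Inr.ne0 θ g)

variable (D : Da e)

theorem ker {g : GQ} (h : rb e g = 1) : D.η g = 1 ∧ D.η' g = 1 :=
  D.ec.tri.elim (fun t => (tri t g).1 h) fun t => ((tri t g).1 h).symm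

theorem det (g : GQ) : (rb e g).det = D.η g * D.η' g :=
  D.ec.tri.elim (fun t => (tri t g).2) fun t => (tri t g).2.trans (mul_comm _ _)

theorem prd (a : ℕ) (g : GQ) :
    (D.η ^ a) g * (D.η' * D.η ^ (1 + (pp - 2) * a)) g = D.η g * D.η' g := by
  have := fer D.η g
  obtain ⟨k, hk⟩ := Nat.exists_eq_add_of_le D.five
  rw [show pp - 1 = pp - 2 + 1 by omega] at this
  simp only [MonoidHom.mul_apply, MonoidHom.pow_apply]
  rw [pow_add, pow_mul]
  linear_combination (D.η g * D.η' g) * ((mul_pow _ _ a).symm.trans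
    ((congrArg (· ^ a) ((pow_succ _ _).symm.trans this)).trans (one_pow a)))

theorem ord : orderOf D.η ∣ pp - 1 := orderOf_dvd_of_pow_eq_one (MonoidHom.ext (fer D.η))

theorem pos : 0 < orderOf D.η :=
  Nat.pos_of_dvd_of_pos (ord D) (by have := D.five; omega)

theorem ne1 : D.η ≠ 1 := fun z => by
  have : D.ψ = 1 := MulChar.ext fun u => by
    obtain ⟨g, rfl⟩ := Lk.Cy.cy_onto u
    have := D.dc.eq g _ fun ζ h => Lk.Cy.cy_act g h
    rw [z, ZMod.natCast_zmod_val] at this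
    rw [MulChar.one_apply_coe]
    exact this.symm
  have p := D.dc.prim
  rw [DirichletCharacter.isPrimitive_def, this, DirichletCharacter.conductor_one] at p
  exact D.dc.one.ne p

theorem lt : 1 < orderOf D.η :=
  lt_of_le_of_ne (pos D) fun z => ne1 D (orderOf_eq_one_iff.1 z.symm)

/-- an element which separates the two kinds of characters -/
theorem sep : ∃ g, D.η g = 1 ∧ D.η' g = -1 := by
  obtain ⟨i, h, z⟩ := Inr.oz_in (e.ov pp e.pm) (neg_ne_zero.2 (one_ne_zero (α := F)))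
  have a := D.ec.ine _ i (e.ov pp e.pm) h
  rw [z, D.ec.ev.neg_one_pow] at a
  exact ⟨i, a, by rw [← z, ← D.ec.det, a, one_mul]⟩

theorem pa_ker (a : ℕ) {g : GQ} (h : rb e g = 1) : pa D.η D.η' a g = 1 :=
  dg_on1 (by simp [(ker D h).1]) (by simp [(ker D h).1, (ker D h).2])

theorem pa_mod (a : ℕ) : pa D.η D.η' (a % orderOf D.η) = pa D.η D.η' a := by
  rw [pa, pa, pow_mod_orderOf, pow_add, pow_add, mul_comm (pp - 2), mul_comm (pp - 2), pow_mul,
    pow_mul, pow_mod_orderOf]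

/-- the faithful powers -/
abbrev Ix : Type := {a : Fin (orderOf D.η) // a.val.Coprime (orderOf D.η)}

theorem card : 2 * Fintype.card (Ix D) < pp := by
  obtain ⟨k, hk⟩ := ord D
  obtain ⟨h, hh⟩ := pp_prime.odd_of_ne_two (by have := D.five; omega)
  have := Fintype.card_le_of_injective (β := Fin h)
    (fun a : Ix D => if z : Even (orderOf D.η) then ⟨a.1.val / 2, by
      have := a.1.2
      have := Nat.le_of_dvd (by have := D.five; omega) (ord D)
      omega⟩ else ⟨a.1.val, by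
      have := a.1.2
      obtain ⟨k', rfl⟩ := (Nat.even_mul.1 (show Even (orderOf D.η * k) from
        ⟨h, by omega⟩)).resolve_left z
      have : 0 < k' := Nat.pos_of_ne_zero fun x => by have := D.five; rw [x] at hk; omega
      nlinarith [show 2 * h = orderOf D.η * (k' + k') by omega]⟩) fun a a' x => by
      refine Subtype.ext (Fin.ext ?_)
      by_cases z : Even (orderOf D.η)
      · simp only [dif_pos z, Fin.mk.injEq] at x
        have o := fun a : Ix D => Nat.odd_iff.1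
          (a.2.coprime_dvd_right z.two_dvd).odd_of_right
        have := o a
        have := o a'
        omega
      · simpa only [dif_neg z, Fin.mk.injEq] using x
  rw [Fintype.card_fin] at this
  omega

theorem rf (hR : RSE) : Rk.Rf e fun a : Ix D => pa D.η D.η' a.1.val := by
  have r := (hR e).1
  obtain ⟨s, s1, s2⟩ := sep D
  have tw : ∀ a, (D.η' * D.η ^ (1 + (pp - 2) * a)) s = -1 := fun a => by simp [s1, s2]
  have t0 : ∀ a, (D.η ^ a) s = 1 := fun a => by simp [s1]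
  have n2 : (-1 : F) ≠ 1 := fun z => two_ne (by linear_combination -z)
  have inj : ∀ a a' : Ix D, (∀ g, (D.η ^ a.1.val) g = (D.η ^ a'.1.val) g) → a = a' := fun a a' h =>
    Subtype.ext (Fin.ext (pow_injOn_Iio_orderOf a.1.2 a'.1.2 (MonoidHom.ext h)))
  refine ⟨fun a => ⟨dg_dg _ _, ⟨⟨Subgroup.isOpen_mono (fun _ m => pa_ker D _ m) r.opn,
    (funext fun g => (dg_det _ _ g).trans ((prd D _ g).trans (det D g).symm)).trans r.det⟩, r.pm,
    r.pr, fun g m => pa_ker D _ (r.unr g m)⟩, fun _ => pa_ker D _⟩, fun a v h => ?_,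
    fun a j a' j' h => ?_⟩
  · obtain ⟨g, n⟩ : ∃ g, (D.η ^ a.1.val) g ≠ 1 := by
      by_contra! z
      exact (lt D).ne' (Nat.eq_one_of_dvd_coprimes a.2
        (orderOf_dvd_of_pow_eq_one (MonoidHom.ext z)) dvd_rfl)
    have a0 := congrFun ((dg_mv _ _ g v).symm.trans (h g trivial)) 0
    have a1 := congrFun ((dg_mv _ _ s v).symm.trans (h s trivial)) 1
    simp only [cons_val_zero, cons_val_one, tw] at a0 a1
    funext i
    fin_cases i
    exacts [(mul_left_eq_self₀.1 a0).resolve_left n, (mul_left_eq_self₀.1 a1).resolve_left n2]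
  · fin_cases j <;> fin_cases j'
    · exact ⟨inj a a' h, rfl⟩
    · exact (n2 ((tw _).symm.trans ((h s).symm.trans (t0 _)))).elim
    · exact (n2 ((tw _).symm.trans ((h s).trans (t0 _)))).elim
    · refine ⟨inj a a' fun g => mul_right_cancel₀
        (Inr.ne0 (D.η' * D.η ^ (1 + (pp - 2) * a'.1.val)) g) ?_, rfl⟩
      rw [prd, ← prd D a.1.val g]
      exact congrArg _ (h g).symm

theorem opn (hR : RSE) : IsOpen (D.η.ker : Set GQ) :=
  Subgroup.isOpen_mono (fun _ m => (ker D m).1) (hR e).1.opn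

theorem unr (hR : RSE) {q : ℕ} {P : Ideal (𝓞 Qb)} (o : Ov q P) (n : q ∉ e.S) {g : GQ}
    (i : Inert P g) : D.η g = 1 :=
  (ker D ((hR e).1.unr g ⟨q, mt List.mem_toFinset.1 n, P, o, i⟩)).1

theorem dec_le {V : Subgroup GQ} (hV : IsOpen (V : Set GQ)) {q : ℕ} {P : Ideal (𝓞 Qb)} (o : Ov q P)
    {φ : GQ} (f : Fb q P φ) (m : φ ∈ V) (i : ∀ g, Inert P g → g ∈ V) : dec P ≤ V := fun g h => by
  obtain ⟨k, s, u, hs, hu, rfl⟩ := dec_gen o.1 o.2.1 o.2.2 f h V hV
  exact mul_mem (mul_mem hu (pow_mem m k)) (i s hs)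

theorem mv {e : Crv} (b : Fld e) (η η' : Ch) {n c N : ℕ} (h : N = pp ^ (n + 1)) (χ : GQ → ZMod N)
    {γ : GQ} {m : ℕ} (ly : P014Y.Mu.Ly b.Γ e.S.toFinset (n + 1) c fun g => (χ g).val)
    (ad : b.Ad (n + 1) c fun g => (χ g).val) (sq : Squarefree c) (one : 1 < c)
    (cop : c.Coprime b.δ') (hc : ∀ q P, Ov q P → q ∣ c → dec P ≤ Hc b.j 1 ⊓ η.ker) (g0 : γ ∈ b.Γ)
    (g1 : η γ = 1) (g2 : χ γ = 1) (kd : Kd b η η' c χ) (cd : c.primeFactors.card ≤ m)
    (tw : m ≤ n → b.Tw m n c fun g => (χ g).val) : ∃ c χ γ, Lz b η n c χ γ ∧ Kd b η η' c χ ∧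
      c.primeFactors.card ≤ m ∧ (m ≤ n → b.Tw m n c fun g => (χ g).val) := by
  subst h
  haveI : NeZero (pp ^ (n + 1)) := ⟨pow_ne_zero _ pp_ne⟩
  refine ⟨c, χ, γ, ⟨ly, fun g a h a' => ?_, fun g a => ?_, sq, one, cop, hc, g0, g1, g2⟩, kd, cd, tw⟩
  · simpa using (ZMod.natCast_eq_natCast_iff _ _ _).2 (ad.add g a h a')
  · simpa using (ZMod.natCast_eq_zero_iff _ _).2 (ad.ker g a)

end Tw

open Tw in
/-- **row TOW** -/
theorem tow (hR : RSE) (kzf : Rk.KZF) (lzf : Rk.LZF) (vks : Rk.VKS) : TOW :=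
  fun e D b => by
  obtain ⟨r, m, H⟩ := kzf _ e b _ _ (card D) (rf D hR) (vks e b).2
  refine ⟨r + m + 1, fun n => ?_⟩
  obtain ⟨c, χ, σ, K⟩ := H ∅ n
  have mc : ∀ q : ℕ, q.Prime → q ∣ c → q ∈ c.primeFactors := fun q p d =>
    Nat.mem_primeFactors.2 ⟨p, d, K.lz.sq.ne_zero⟩
  obtain ⟨ly, tw⟩ := lzf e b _ _ n c χ K.lz fun q p d => (K.gt q (mc q p d)).1
  obtain ⟨q, hq, dq⟩ := Nat.exists_prime_and_dvd K.lz.one.ne'
  obtain ⟨P, o⟩ := P022.H916.exists_prime hq
  obtain ⟨γ, g0, i, g2⟩ := K.lz.ram q P ⟨hq, o⟩ dq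
  refine mv b _ _ (pow_succ' _ _).symm χ ly K.lz.ad K.lz.sq K.lz.one
    (Nat.coprime_of_dvd fun l p d => (K.lz.out l p d).2) (fun l Q o d => le_inf ?_ ?_) g0
    (unr D hR ⟨hq, o⟩ (K.lz.out q hq dq).1 i) g2 ⟨σ, fun l h => ⟨(K.gt l h).2.2.1, (K.gt l h).2.2.2.2⟩,
      fun a h => pa_mod D a ▸ K.kk ⟨⟨_, Nat.mod_lt a (pos D)⟩,
        (Nat.coprime_iff_gcd_eq_one.2 ((Nat.gcd_rec _ _).symm.trans h.symm))⟩⟩
    (K.crd.trans (by omega)) fun l => tw _ _ (by omega) le_rfl (K.crd.trans (by omega))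
      fun q p d => (K.gt q (mc q p d)).2.1.mono (by omega)
  · obtain ⟨φ, f⟩ := P022D.W.exists_phi o.1 o.2.1 o.2.2
    have v := (K.gt l (mc l o.1 d)).1.fv Q
    exact dec_le (vks e b).2.opn o f (v φ o f) fun g i =>
      (Subgroup.mul_mem_cancel_left _ (v φ o f)).1 (v _ o (P014Y.Mu.Lv.fb_mul o f i))
  · obtain ⟨-, -, ⟨Q', o', f⟩, z, -⟩ := K.gt l (mc l o.1 d)
    obtain ⟨t, -, k⟩ := P004S.ex_conj o' o
    have := congrFun (congrFun (z ⟨⟨1, lt D⟩, Nat.coprime_one_left _⟩) 0) 0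
    exact fun g m => (Inr.cj D.η t g).symm.trans (dec_le (opn D hR) o' f
      ((pow_one _).symm.trans this) (fun g => unr D hR o' (K.lz.out l o.1 d).1) (k g m))

end Vale.Agent.P014Z.Gl
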