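import Vale.Agent.P004K.All
import Vale.Agent.P014Y.Rk.Kla
import Vale.Agent.P014Y.Rk.Rsa
import Vale.Agent.P014Z.Gl.Dat
import Vale.Agent.P014Z.Gl.Tow
import Vale.Agent.P014Z.Rk.Bnd
import Vale.Agent.P014Z.Rk.Ini
import Vale.Agent.P014Z.Rk.Lzf
import Vale.Agent.P014Z.Rk.Nxt
import Vale.Agent.P014Z.Rk.Stp
import Vale.Agent.P014Z.Rk.Vks

/-! # P014Z: the tower and the data, closed -/

set_option autoImplicit false

namespace Vale.Agent.P014Z.Gl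

open P004K (x_rc1 x_rc2 x_rc3 y_hg1)
open P014Y.Mu (rse)
open P014Y.Rk (kla rsa)

variable [P014U.Pp]

theorem kzf_all : Rk.KZF :=
  Rk.kzf Rk.stp Rk.bnd kla rse rsa (Rk.ini x_rc1 x_rc2 x_rc3) (Rk.nxt x_rc1 x_rc2 x_rc3 rsa)

/-- **the tower** -/
theorem tow_all : TOW := tow rse kzf_all (Rk.lzf x_rc1 x_rc2) (Rk.vks x_rc1 x_rc2)

/-- **the data** -/
theorem dat_all : DAT := dat x_rc1 y_hg1

end Vale.Agent.P014Z.Gl
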